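import Mathlib
import Vale.Agent.Lib.P137.helper41.Defs

/-!
# P137 bridge, leaf BR7 (backup copy by helper17)

For an antitone Lipschitz function `F` on the line tending to `0` at infinity, the value `F ρ`
is at most the integral of `|deriv F|` over `(ρ, ∞)`.
-/

namespace Vale.Agent.Lib.P137.H17

open Vale.Agent.Lib.P137 MeasureTheory Metric Set Filter
open scoped ENNReal NNReal Topology

theorem le_tail_deriv (F : ℝ → ℝ) (hF : Antitone F) {L : ℝ≥0} (hL : LipschitzWith L F)
    (hlim : Tendsto F atTop (𝓝 0)) (ρ : ℝ) :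
    ENNReal.ofReal (F ρ) ≤ ∫⁻ s in Ioi ρ, ENNReal.ofReal |deriv F s| := by
  have key : ∀ b, ρ < b →
      ENNReal.ofReal (F ρ - F b) ≤ ∫⁻ s in Ioi ρ, ENNReal.ofReal |deriv F s| := by
    intro b hb
    have hac : AbsolutelyContinuousOnInterval F ρ b :=
      (hL.lipschitzOnWith).absolutelyContinuousOnInterval
    have hint := hac.integral_deriv_eq_sub
    have hii : IntervalIntegrable (deriv F) volume ρ b := hac.intervalIntegrable_deriv
    have habs : ∀ s, |deriv F s| = -deriv F s := fun s => abs_of_nonpos hF.deriv_nonpos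
    have h1 : ∫ x in ρ..b, |deriv F x| = F ρ - F b := by
      simp only [habs]
      rw [intervalIntegral.integral_neg, hint]
      ring
    have h2 : ∫ x in Ioc ρ b, |deriv F x| = F ρ - F b := by
      rw [← intervalIntegral.integral_of_le hb.le]
      exact h1
    have hio : IntegrableOn (fun x => |deriv F x|) (Ioc ρ b) volume :=
      (intervalIntegrable_iff_integrableOn_Ioc_of_le hb.le).1 hii.abs
    have h3 : ENNReal.ofReal (F ρ - F b) = ∫⁻ s in Ioc ρ b, ENNReal.ofReal |deriv F s| := by
      rw [← h2]
      exact ofReal_integral_eq_lintegral_ofReal hio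
        (Filter.Eventually.of_forall (fun x => abs_nonneg _))
    rw [h3]
    exact lintegral_mono_set Ioc_subset_Ioi_self
  have hlim2 : Tendsto (fun b => ENNReal.ofReal (F ρ - F b)) atTop
      (𝓝 (ENNReal.ofReal (F ρ))) := by
    have h := (ENNReal.continuous_ofReal.tendsto (F ρ - 0)).comp (tendsto_const_nhds.sub hlim)
    rw [sub_zero] at h
    exact h
  exact le_of_tendsto hlim2 ((eventually_gt_atTop ρ).mono key)

end Vale.Agent.Lib.P137.H17
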