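import Mathlib
import Vale.Agent.Lib.P137.TVDefs

/-!
# P137, job L2 (second copy by helper17), core: lower bound for the total variation of a radially
nonincreasing function, given the test fields of job L1 as a hypothesis

For an antitone nonnegative profile `F` with `x ↦ F ‖x‖` integrable on `R^d`, `d ≥ 2`:
`(d - 1) * ∫ F ‖x‖ / ‖x‖ ≤ totalVar (x ↦ F ‖x‖)`, provided the test fields of job L1 exist
(`tv_lower_of_field`). This file does not depend on job L1; the file `TvLower.lean` of this folder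
combines the two.
-/

open MeasureTheory

namespace Vale.Agent.Lib.P137.H17

open Vale.Agent.Lib.P137 Filter Topology

/-- The divergence of a continuously differentiable field is continuous. -/
theorem jH_div_continuous {d : ℕ} (φ : Sp d → Sp d) (h1 : ContDiff ℝ 1 φ) :
    Continuous (fun x => divergence φ x) := by
  have hfd : Continuous (fderiv ℝ φ) := h1.continuous_fderiv one_ne_zero
  simp only [divergence]
  refine continuous_finsetSum _ (fun i _ => ?_)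
  exact (EuclideanSpace.proj i).continuous.comp (hfd.clm_apply continuous_const)

/-- The divergence of a compactly supported field has compact support. -/
theorem jH_div_compact {d : ℕ} (φ : Sp d → Sp d) (h2 : HasCompactSupport φ) :
    HasCompactSupport (fun x => divergence φ x) := by
  have h := h2.fderiv (𝕜 := ℝ)
  have e : (fun x => divergence φ x)
      = (fun L : Sp d →L[ℝ] Sp d => ∑ i, (L (EuclideanSpace.single i 1)) i) ∘ (fderiv ℝ φ) := rfl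
  rw [e]
  exact h.comp_left (by simp)

/-- The basic estimate for one test field. -/
theorem jH_key {d : ℕ} (hd : 1 ≤ d) (F : ℝ → ℝ) (hF0 : ∀ t, 0 ≤ F t)
    (hint : Integrable (fun x : Sp d => F ‖x‖)) (M δ R c : ℝ) (hc0 : 0 ≤ c)
    (φ : Sp d → Sp d) (h1 : ContDiff ℝ 1 φ) (h2 : HasCompactSupport φ) (h3 : ∀ x, ‖φ x‖ ≤ 1)
    (h4 : ∀ x, ‖x‖ ≤ R → 0 ≤ divergence φ x)
    (h5 : ∀ x, δ ≤ ‖x‖ → ‖x‖ ≤ R → c * ((d : ℝ) - 1) * ‖x‖⁻¹ ≤ divergence φ x)
    (h6 : ∀ x, R < ‖x‖ → -M ≤ divergence φ x) :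
    ENNReal.ofReal c * (((d - 1 : ℕ) : ENNReal) *
        ∫⁻ x in {x : Sp d | δ ≤ ‖x‖ ∧ ‖x‖ ≤ R},
          ENNReal.ofReal (F ‖x‖) * ENNReal.ofReal ‖x‖⁻¹)
      ≤ totalVar (fun x : Sp d => F ‖x‖)
        + ENNReal.ofReal (M * ∫ x, ({x : Sp d | R < ‖x‖}).indicator (fun x => F ‖x‖) x) := by
  have hAm : MeasurableSet {x : Sp d | δ ≤ ‖x‖ ∧ ‖x‖ ≤ R} :=
    (measurableSet_le measurable_const measurable_norm).inter
      (measurableSet_le measurable_norm measurable_const)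
  have hSm : MeasurableSet {x : Sp d | R < ‖x‖} := measurableSet_lt measurable_const measurable_norm
  have hgc := jH_div_continuous φ h1
  have hgs := jH_div_compact φ h2
  obtain ⟨C, hC⟩ := hgc.bounded_above_of_compact_support hgs
  have hfg : Integrable (fun x : Sp d => F ‖x‖ * divergence φ x) := by
    refine Integrable.mono' (hint.norm.mul_const C)
      (hint.aestronglyMeasurable.mul hgc.aestronglyMeasurable) (ae_of_all _ fun x => ?_)
    rw [norm_mul]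
    exact mul_le_mul_of_nonneg_left (hC x) (norm_nonneg _)
  have hu : Integrable (({x : Sp d | R < ‖x‖}).indicator (fun x => F ‖x‖)) := hint.indicator hSm
  have hsum : Integrable (fun x : Sp d => F ‖x‖ * divergence φ x
      + M * ({x : Sp d | R < ‖x‖}).indicator (fun x => F ‖x‖) x) := hfg.add (hu.const_mul M)
  have hnn : ∀ x : Sp d, 0 ≤ F ‖x‖ * divergence φ x
      + M * ({x : Sp d | R < ‖x‖}).indicator (fun x => F ‖x‖) x := by
    intro x
    have hfx := hF0 ‖x‖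
    by_cases hx : R < ‖x‖
    · have e : ({x : Sp d | R < ‖x‖}).indicator (fun x => F ‖x‖) x = F ‖x‖ :=
        Set.indicator_of_mem (s := {x : Sp d | R < ‖x‖}) hx _
      rw [e]
      have h := h6 x hx
      nlinarith
    · have e : ({x : Sp d | R < ‖x‖}).indicator (fun x => F ‖x‖) x = 0 :=
        Set.indicator_of_notMem (s := {x : Sp d | R < ‖x‖}) hx _
      rw [e, mul_zero, add_zero]
      exact mul_nonneg hfx (h4 x (not_lt.mp hx))
  have hpt : ∀ x : Sp d, ({x : Sp d | δ ≤ ‖x‖ ∧ ‖x‖ ≤ R}).indicator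
      (fun x => ENNReal.ofReal c * (((d - 1 : ℕ) : ENNReal) *
        (ENNReal.ofReal (F ‖x‖) * ENNReal.ofReal ‖x‖⁻¹))) x
      ≤ ENNReal.ofReal (F ‖x‖ * divergence φ x
        + M * ({x : Sp d | R < ‖x‖}).indicator (fun x => F ‖x‖) x) := by
    intro x
    by_cases hx : x ∈ {x : Sp d | δ ≤ ‖x‖ ∧ ‖x‖ ≤ R}
    · rw [Set.indicator_of_mem hx]
      have hx2 : ¬ R < ‖x‖ := not_lt.mpr hx.2
      have e : ({x : Sp d | R < ‖x‖}).indicator (fun x => F ‖x‖) x = 0 :=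
        Set.indicator_of_notMem (s := {x : Sp d | R < ‖x‖}) hx2 _
      rw [e, mul_zero, add_zero]
      have hd1 : (0 : ℝ) ≤ (d : ℝ) - 1 := sub_nonneg.2 (by exact_mod_cast hd)
      have e2 : ((d - 1 : ℕ) : ENNReal) = ENNReal.ofReal ((d : ℝ) - 1) := by
        rw [← ENNReal.ofReal_natCast, Nat.cast_sub hd, Nat.cast_one]
      rw [e2, ← ENNReal.ofReal_mul (hF0 _), ← ENNReal.ofReal_mul hd1, ← ENNReal.ofReal_mul hc0]
      apply ENNReal.ofReal_le_ofReal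
      have h := h5 x hx.1 hx.2
      calc c * (((d : ℝ) - 1) * (F ‖x‖ * ‖x‖⁻¹)) = F ‖x‖ * (c * ((d : ℝ) - 1) * ‖x‖⁻¹) := by ring
        _ ≤ F ‖x‖ * divergence φ x := mul_le_mul_of_nonneg_left h (hF0 _)
    · rw [Set.indicator_of_notMem hx]
      exact bot_le
  calc ENNReal.ofReal c * (((d - 1 : ℕ) : ENNReal) *
        ∫⁻ x in {x : Sp d | δ ≤ ‖x‖ ∧ ‖x‖ ≤ R},
          ENNReal.ofReal (F ‖x‖) * ENNReal.ofReal ‖x‖⁻¹)
      = ∫⁻ x, ({x : Sp d | δ ≤ ‖x‖ ∧ ‖x‖ ≤ R}).indicator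
          (fun x => ENNReal.ofReal c * (((d - 1 : ℕ) : ENNReal) *
            (ENNReal.ofReal (F ‖x‖) * ENNReal.ofReal ‖x‖⁻¹))) x := by
        rw [lintegral_indicator hAm, lintegral_const_mul' _ _ ENNReal.ofReal_ne_top,
          lintegral_const_mul' _ _ (ENNReal.natCast_ne_top _)]
    _ ≤ ∫⁻ x, ENNReal.ofReal (F ‖x‖ * divergence φ x
          + M * ({x : Sp d | R < ‖x‖}).indicator (fun x => F ‖x‖) x) := lintegral_mono hpt
    _ = ENNReal.ofReal (∫ x, (F ‖x‖ * divergence φ x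
          + M * ({x : Sp d | R < ‖x‖}).indicator (fun x => F ‖x‖) x)) :=
        (ofReal_integral_eq_lintegral_ofReal hsum (ae_of_all _ hnn)).symm
    _ = ENNReal.ofReal ((∫ x, F ‖x‖ * divergence φ x)
          + M * ∫ x, ({x : Sp d | R < ‖x‖}).indicator (fun x => F ‖x‖) x) := by
        rw [integral_add hfg (hu.const_mul M), integral_const_mul]
    _ ≤ ENNReal.ofReal (∫ x, F ‖x‖ * divergence φ x)
          + ENNReal.ofReal (M * ∫ x, ({x : Sp d | R < ‖x‖}).indicator (fun x => F ‖x‖) x) :=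
        ENNReal.ofReal_add_le
    _ ≤ totalVar (fun x : Sp d => F ‖x‖)
          + ENNReal.ofReal (M * ∫ x, ({x : Sp d | R < ‖x‖}).indicator (fun x => F ‖x‖) x) := by
        refine add_le_add_left ?_ _
        exact le_iSup₂ (f := fun (ψ : Sp d → Sp d)
          (_ : ContDiff ℝ 1 ψ ∧ HasCompactSupport ψ ∧ ∀ x, ‖ψ x‖ ≤ 1) =>
            ENNReal.ofReal (∫ x, F ‖x‖ * divergence ψ x)) φ ⟨h1, h2, h3⟩

/-- Monotone convergence over the annuli `1 / (n + 1) ≤ ‖x‖ ≤ n + 1`. -/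
theorem jH_mono_lim {d : ℕ} (F : ℝ → ℝ) (hF : Antitone F) :
    Tendsto (fun n : ℕ => ∫⁻ x in {x : Sp d | 1 / ((n : ℝ) + 1) ≤ ‖x‖ ∧ ‖x‖ ≤ (n : ℝ) + 1},
        ENNReal.ofReal (F ‖x‖) * ENNReal.ofReal ‖x‖⁻¹) atTop
      (𝓝 (∫⁻ x : Sp d, ENNReal.ofReal (F ‖x‖) * ENNReal.ofReal ‖x‖⁻¹)) := by
  have hwm : Measurable (fun x : Sp d => ENNReal.ofReal (F ‖x‖) * ENNReal.ofReal ‖x‖⁻¹) :=
    ((hF.measurable.comp measurable_norm).ennreal_ofReal).mul
      (measurable_norm.inv.ennreal_ofReal)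
  have hAm : ∀ n : ℕ,
      MeasurableSet {x : Sp d | 1 / ((n : ℝ) + 1) ≤ ‖x‖ ∧ ‖x‖ ≤ (n : ℝ) + 1} := fun n =>
    (measurableSet_le measurable_const measurable_norm).inter
      (measurableSet_le measurable_norm measurable_const)
  have hsub : ∀ n m : ℕ, n ≤ m →
      {x : Sp d | 1 / ((n : ℝ) + 1) ≤ ‖x‖ ∧ ‖x‖ ≤ (n : ℝ) + 1}
        ⊆ {x : Sp d | 1 / ((m : ℝ) + 1) ≤ ‖x‖ ∧ ‖x‖ ≤ (m : ℝ) + 1} := by
    intro n m hnm x hx
    have hnm' : (n : ℝ) ≤ (m : ℝ) := by exact_mod_cast hnm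
    have hn : (0 : ℝ) < (n : ℝ) + 1 := by positivity
    refine ⟨le_trans ?_ hx.1, le_trans hx.2 (by linarith)⟩
    exact one_div_le_one_div_of_le hn (by linarith)
  have hmono : Monotone (fun (n : ℕ) (x : Sp d) =>
      ({x : Sp d | 1 / ((n : ℝ) + 1) ≤ ‖x‖ ∧ ‖x‖ ≤ (n : ℝ) + 1}).indicator
        (fun x : Sp d => ENNReal.ofReal (F ‖x‖) * ENNReal.ofReal ‖x‖⁻¹) x) := by
    intro n m hnm x
    exact Set.indicator_le_indicator_of_subset (hsub n m hnm) (fun _ => bot_le) x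
  have hsup : ∀ x : Sp d,
      (⨆ n : ℕ, ({x : Sp d | 1 / ((n : ℝ) + 1) ≤ ‖x‖ ∧ ‖x‖ ≤ (n : ℝ) + 1}).indicator
        (fun x : Sp d => ENNReal.ofReal (F ‖x‖) * ENNReal.ofReal ‖x‖⁻¹) x)
        = ENNReal.ofReal (F ‖x‖) * ENNReal.ofReal ‖x‖⁻¹ := by
    intro x
    apply le_antisymm
    · exact iSup_le fun n => Set.indicator_le_self _ _ x
    · by_cases hx : x = 0
      · have e : ENNReal.ofReal (F ‖x‖) * ENNReal.ofReal ‖x‖⁻¹ = 0 := by simp [hx]
        rw [e]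
        exact bot_le
      · have hpos : 0 < ‖x‖ := norm_pos_iff.2 hx
        obtain ⟨n1, hn1⟩ := exists_nat_gt ‖x‖
        obtain ⟨n2, hn2⟩ := exists_nat_gt (1 / ‖x‖)
        have hmem : x ∈ {x : Sp d | 1 / (((max n1 n2 : ℕ) : ℝ) + 1) ≤ ‖x‖
            ∧ ‖x‖ ≤ ((max n1 n2 : ℕ) : ℝ) + 1} := by
          have h1 : (n1 : ℝ) ≤ ((max n1 n2 : ℕ) : ℝ) := by exact_mod_cast le_max_left n1 n2
          have h2 : (n2 : ℝ) ≤ ((max n1 n2 : ℕ) : ℝ) := by exact_mod_cast le_max_right n1 n2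
          refine ⟨?_, by linarith⟩
          rw [div_le_iff₀ (by positivity)]
          have h3 : 1 < (n2 : ℝ) * ‖x‖ := by
            rw [div_lt_iff₀ hpos] at hn2
            exact hn2
          nlinarith
        refine le_iSup_of_le (max n1 n2) ?_
        rw [Set.indicator_of_mem hmem]
  have h1 : ∀ n : ℕ, ∫⁻ x in {x : Sp d | 1 / ((n : ℝ) + 1) ≤ ‖x‖ ∧ ‖x‖ ≤ (n : ℝ) + 1},
        ENNReal.ofReal (F ‖x‖) * ENNReal.ofReal ‖x‖⁻¹
      = ∫⁻ x, ({x : Sp d | 1 / ((n : ℝ) + 1) ≤ ‖x‖ ∧ ‖x‖ ≤ (n : ℝ) + 1}).indicator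
        (fun x : Sp d => ENNReal.ofReal (F ‖x‖) * ENNReal.ofReal ‖x‖⁻¹) x := fun n =>
    (lintegral_indicator (hAm n) _).symm
  have h2 : ∫⁻ x : Sp d, ENNReal.ofReal (F ‖x‖) * ENNReal.ofReal ‖x‖⁻¹
      = ⨆ n : ℕ, ∫⁻ x, ({x : Sp d | 1 / ((n : ℝ) + 1) ≤ ‖x‖ ∧ ‖x‖ ≤ (n : ℝ) + 1}).indicator
        (fun x : Sp d => ENNReal.ofReal (F ‖x‖) * ENNReal.ofReal ‖x‖⁻¹) x := by
    rw [← lintegral_iSup (fun n => hwm.indicator (hAm n)) hmono]
    exact lintegral_congr (fun x => (hsup x).symm)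
  simp only [h1]
  rw [h2]
  exact tendsto_atTop_iSup (fun n m hnm => lintegral_mono (hmono hnm))

/-- The tails of the integral tend to zero. -/
theorem jH_tail {d : ℕ} (F : ℝ → ℝ) (hint : Integrable (fun x : Sp d => F ‖x‖)) (M : ℝ) :
    Tendsto (fun n : ℕ => ENNReal.ofReal
        (M * ∫ x, ({x : Sp d | (n : ℝ) + 1 < ‖x‖}).indicator (fun x => F ‖x‖) x)) atTop
      (𝓝 0) := by
  have hSm : ∀ n : ℕ, MeasurableSet {x : Sp d | (n : ℝ) + 1 < ‖x‖} := fun n =>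
    measurableSet_lt measurable_const measurable_norm
  have h0 : Tendsto (fun n : ℕ =>
      ∫ x, ({x : Sp d | (n : ℝ) + 1 < ‖x‖}).indicator (fun x => F ‖x‖) x) atTop
      (𝓝 (∫ _ : Sp d, (0 : ℝ))) := by
    refine tendsto_integral_of_dominated_convergence (fun x : Sp d => ‖F ‖x‖‖)
      (fun n => (hint.indicator (hSm n)).aestronglyMeasurable) hint.norm
      (fun n => ae_of_all _ fun x => norm_indicator_le_norm_self _ _) (ae_of_all _ fun x => ?_)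
    refine tendsto_const_nhds.congr' ?_
    obtain ⟨n0, hn0⟩ := exists_nat_gt ‖x‖
    filter_upwards [eventually_ge_atTop n0] with n hn
    have hx : x ∉ {x : Sp d | (n : ℝ) + 1 < ‖x‖} := by
      have h : (n0 : ℝ) ≤ (n : ℝ) := by exact_mod_cast hn
      intro hmem
      have hmem' : (n : ℝ) + 1 < ‖x‖ := hmem
      linarith
    exact (Set.indicator_of_notMem hx _).symm
  rw [integral_zero] at h0
  have h1 := (ENNReal.continuous_ofReal.tendsto _).comp (h0.const_mul M)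
  rw [mul_zero, ENNReal.ofReal_zero] at h1
  exact h1

/-- The lower bound for the total variation, from the existence of the test fields (the
statement of job L1 for the dimension `d`, taken as a hypothesis here). -/
theorem tv_lower_of_field {d : ℕ} (hd : 2 ≤ d)
    (hex : ∃ M : ℝ, 0 ≤ M ∧ ∀ (δ R c : ℝ), 0 < δ → 1 ≤ R → c < 1 →
      ∃ φ : Sp d → Sp d, ContDiff ℝ 1 φ ∧ HasCompactSupport φ ∧ (∀ x, ‖φ x‖ ≤ 1) ∧
        (∀ x, ‖x‖ ≤ R → 0 ≤ divergence φ x) ∧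
        (∀ x, δ ≤ ‖x‖ → ‖x‖ ≤ R → c * ((d : ℝ) - 1) * ‖x‖⁻¹ ≤ divergence φ x) ∧
        (∀ x, R < ‖x‖ → -M ≤ divergence φ x))
    (F : ℝ → ℝ) (hF : Antitone F) (hF0 : ∀ t, 0 ≤ F t)
    (hint : Integrable (fun x : Sp d => F ‖x‖)) :
    ((d - 1 : ℕ) : ENNReal) *
        ∫⁻ x : Sp d, ENNReal.ofReal (F ‖x‖) * ENNReal.ofReal ‖x‖⁻¹
      ≤ totalVar (fun x : Sp d => F ‖x‖) := by
  obtain ⟨M, -, hfield⟩ := hex
  have K : ∀ n : ℕ, ENNReal.ofReal (1 - 1 / ((n : ℝ) + 1)) * (((d - 1 : ℕ) : ENNReal) *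
        ∫⁻ x in {x : Sp d | 1 / ((n : ℝ) + 1) ≤ ‖x‖ ∧ ‖x‖ ≤ (n : ℝ) + 1},
          ENNReal.ofReal (F ‖x‖) * ENNReal.ofReal ‖x‖⁻¹)
      ≤ totalVar (fun x : Sp d => F ‖x‖)
        + ENNReal.ofReal
          (M * ∫ x, ({x : Sp d | (n : ℝ) + 1 < ‖x‖}).indicator (fun x => F ‖x‖) x) := by
    intro n
    have hn0 : (0 : ℝ) ≤ (n : ℝ) := Nat.cast_nonneg n
    have hn : (0 : ℝ) < (n : ℝ) + 1 := by positivity
    have hn1 : 1 / ((n : ℝ) + 1) ≤ 1 := by
      rw [div_le_one hn]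
      linarith
    obtain ⟨φ, h1, h2, h3, h4, h5, h6⟩ := hfield (1 / ((n : ℝ) + 1)) ((n : ℝ) + 1)
      (1 - 1 / ((n : ℝ) + 1)) (by positivity) (by linarith)
      (by linarith [one_div_pos.2 hn])
    exact jH_key (by omega) F hF0 hint M _ _ _ (by linarith) φ h1 h2 h3 h4 h5 h6
  have hc : Tendsto (fun n : ℕ => ENNReal.ofReal (1 - 1 / ((n : ℝ) + 1))) atTop (𝓝 1) := by
    have h := (tendsto_const_nhds (x := (1 : ℝ))).sub
      (tendsto_one_div_add_atTop_nhds_zero_nat (𝕜 := ℝ))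
    have h2 := (ENNReal.continuous_ofReal.tendsto _).comp h
    rw [sub_zero, ENNReal.ofReal_one] at h2
    exact h2
  have hL := jH_mono_lim (d := d) F hF
  have hE := jH_tail (d := d) F hint M
  have hlhs := ENNReal.Tendsto.mul hc (Or.inl one_ne_zero)
    (ENNReal.Tendsto.const_mul hL (Or.inr (ENNReal.natCast_ne_top (d - 1))))
    (Or.inr ENNReal.one_ne_top)
  have hrhs := (tendsto_const_nhds (x := totalVar (fun x : Sp d => F ‖x‖))).add hE
  have hfin := le_of_tendsto_of_tendsto' hlhs hrhs K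
  rw [one_mul, add_zero] at hfin
  exact hfin

end Vale.Agent.Lib.P137.H17
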